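import Mathlib
import Vale.Agent.P194.Permanence
import Vale.Agent.P194.FreeResP
import Vale.Agent.P194.Sofic
import Vale.Agent.P194.Centralizing

namespace Vale.Agent.Results.P194.FreeBySofic

open Vale.Agent.P194

universe u v w z

/-- Stable finiteness in characteristic `p` for extensions with residually `p`-finite kernel,
free-by-sofic groups, and centralizing HNN extensions of sofic groups over arbitrary subgroups. -/
theorem result (p : ℕ) [Fact p.Prime] :
    (∀ (K : Type w) [CommRing K] [CharP K p] (G : Type u) [Group G] (Q : Type v) [Group Q]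
        (π : G →* Q),
      ResiduallyPFinite p π.ker → IsStablyFiniteRing (MonoidAlgebra K Q) →
        IsStablyFiniteRing (MonoidAlgebra K G)) ∧
    (∀ (K : Type w) [Field K] [CharP K p] (G : Type u) [Group G] (Q : Type v) [Group Q]
        (π : G →* Q),
      IsSoficGroup Q →
        (ResiduallyPFinite p π.ker ∨ ∃ α : Type z, Nonempty (π.ker ≃* FreeGroup α)) →
        IsStablyFiniteRing (MonoidAlgebra K G)) ∧
    (∀ (K : Type w) [Field K] [CharP K p] (G : Type u) [Group G] (H : Subgroup G),
      IsSoficGroup G →
        IsStablyFiniteRing (MonoidAlgebra K (HNNExtension G H H (MulEquiv.refl H)))) := by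
  refine ⟨?_, ?_, ?_⟩
  · intro K _ _ G _ Q _ π hN hQ
    exact stablyFinite_of_resP_ker p π hN
  · intro K _ _ G _ Q _ π hQ hN
    have := stablyFinite_of_sofic (K := K) hQ
    refine stablyFinite_of_resP_ker p π ?_
    rcases hN with h | ⟨α, ⟨e⟩⟩
    · exact h
    · exact ResiduallyPFinite.of_injective e.toMonoidHom e.injective (freeGroup_resP p α)
  · intro K _ _ G _ H hG
    have := stablyFinite_of_sofic (K := K) hG
    exact stablyFinite_of_resP_ker p (centRight H) (centExt_ker_resP H p)

end Vale.Agent.Results.P194.FreeBySofic
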